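import Vale.Agent.P352.BW.T.Spec
import Vale.Agent.P352.BW.H649.LcDefs
import Vale.Agent.P352.BW.Lm

/-!
# P352: the modular unitaries of the light cone (Huygens principle), block statements, fields of
real scaling dimension (`H728/Lc/Spec.lean` with `n : ℤ` replaced by `d : ℝ`)
-/

set_option linter.all false

noncomputable section

open MeasureTheory Filter Topology
open scoped ComplexConjugate InnerProductSpace BoundedContinuousFunction

namespace Vale.Agent.P352.BW.L

open Vale.Agent.P132 (ModData expB jconj)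
open UniformSpace (Completion)
open GF H246 H496 H755 H15

variable {D : Type*} [NormedAddCommGroup D] [InnerProductSpace ℂ D]

/-- the open backward cone -/
def Bk : Set V := {x | 0 < GF.mdot x x ∧ x o < 0}

/-- a field with the real scaling dimension `d` -/
structure Fz (Q : Theory D) (d : ℝ) (B : Fld D) : Prop where
  fld : Q.fld B
  cov : ∀ s f v, 0 < s → GF.IsTest f → B f (Q.U s GF.one 0 v) =
    ((s ^ (4 - d) : ℝ) : ℂ) • Q.U s GF.one 0 (B (fun x => f (sim s GF.one 0 x)) v)

/-- the vacuum is cyclic for the fields with real scaling dimensions -/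
def DGen (Q : Theory D) : Prop := ∀ S : Submodule ℂ D, Q.vac ∈ S →
  (∀ d B f v, Fz Q d B → GF.IsTest f → v ∈ S → B f v ∈ S) → Dense (S : Set D)

/-- the dilations of `D`, with the parameter of the modular group of the forward cone -/
def dD (Q : Theory D) (t : ℝ) (v : D) : D := Q.U (Real.exp (-(2 * Real.pi * t))) GF.one 0 v

/-- the dilations of the completion of `D` -/
def dV (Q : Theory D) (t : ℝ) (z : Completion D) : Completion D :=
  Ue Q (Real.exp (-(2 * Real.pi * t))) GF.one 0 z

/-- the reflected test function -/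
def rf (f : Fn) : Fn := fun x => f (-x)

/-- algebra of fields with real dimensions -/
structure T1 (Q : Theory D) : Prop where
  adj : ∀ d B, Fz Q d B → ∃ B', Fz Q d B' ∧ ∀ f v w, GF.IsTest f →
    inner ℂ (B f v) w = inner ℂ v (B' (GF.bar f) w)
  rr : ∀ f, rf (rf f) = f
  cj : ∀ f, GF.bar (rf f) = rf (GF.bar f)
  fb : ∀ f, In Fc f → In Bk (rf f)
  bf : ∀ f, In Bk f → In Fc (rf f)
  ib : ∀ O f, In O f → In O (GF.bar f)

/-- block T1 -/
def T1Stmt (Q : Theory D) (A : (V → V) → D → D) : Prop := Rep Q A → T1 Q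

/-- block O: analytic continuation of the dilations on one-field vectors -/
def OStmt (Q : Theory D) (A : (V → V) → D → D) : Prop :=
  Rep Q A → ∀ (d : ℝ) (B : Fld D) (f : Fn), Fz Q d B →
    (In Fc f → ∃ G : ℂ → Completion D, DifferentiableOn ℂ G T.SmI ∧ ContinuousOn G T.Sm ∧
      (∃ C, ∀ z ∈ T.Sm, ‖G z‖ ≤ C) ∧ ∀ t : ℝ, G t = (dD Q t (B f Q.vac) : D) ∧
        G (t - Complex.I / 2) =
          (dD Q t (Complex.exp (Complex.I * Real.pi * d) • B (rf f) Q.vac) : D)) ∧
    (In Bk f → ∃ G : ℂ → Completion D, DifferentiableOn ℂ G T.SmI ∧ ContinuousOn G T.Sm ∧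
      (∃ C, ∀ z ∈ T.Sm, ‖G z‖ ≤ C) ∧ ∀ t : ℝ, G t = (dD Q (-t) (B f Q.vac) : D) ∧
        G (t - Complex.I / 2) =
          (dD Q (-t) (Complex.exp (-(Complex.I * Real.pi * d)) • B (rf f) Q.vac) : D))

/-- `M` is the algebra of the forward cone, as far as needed -/
structure Wal (Q : Theory D) (M : VonNeumannAlgebra (Completion D)) : Prop where
  aff : ∀ B f, Q.fld B → In Fc f → Aff M (B f)
  aff' : ∀ B f, Q.fld B → In Bk f → Aff M.commutant (B f)
  cov : ∀ t, ∀ X ∈ M, ∃ Y ∈ M, ∀ z, Y (dV Q t z) = dV Q t (X z)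

/-- block S: the modular unitaries are the dilations on one-field vectors -/
def SStmt (Q : Theory D) (A : (V → V) → D → D) : Prop :=
  Rep Q A → ∀ M (E : ModData M (om Q)), Wal Q M → ∀ d B f (t : ℝ), Fz Q d B →
    In Fc f → E.U t ((B f Q.vac : D) : Completion D) = ((dD Q t (B f Q.vac) : D) : Completion D)

/-- block P: products -/
def PStmt (Q : Theory D) (A : (V → V) → D → D) : Prop :=
  Rep Q A → ∀ M (E : ModData M (om Q)), Wal Q M → ∀ d B f (v : D), Fz Q d B → In Fc f →
    (∀ t : ℝ, E.U t (v : Completion D) = ((dD Q t v : D) : Completion D)) →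
    ∀ t : ℝ, E.U t ((B f v : D) : Completion D) = ((dD Q t (B f v) : D) : Completion D)

/-- block R: Reeh-Schlieder for the forward cone -/
def RStmt (Q : Theory D) (A : (V → V) → D → D) : Prop :=
  Rep Q A → DGen Q → ∀ S : Submodule ℂ D, Q.vac ∈ S →
    (∀ d B f v, Fz Q d B → In Fc f → v ∈ S → B f v ∈ S) → Dense (S : Set D)

/-- block W -/
def WStmt (Q : Theory D) (A : (V → V) → D → D)
    (𝒜 : Set V → VonNeumannAlgebra (Completion D)) : Prop :=
  LNm Q A 𝒜 → (∀ X ∈ 𝒜 Bk, X ∈ (𝒜 Fc).commutant) → Wal Q (𝒜 Fc)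

/-- tensor fields of real dimension -/
def GStmt (Q : Theory D) : Prop := H846.TGen Q → DGen Q

/-- block B: the modular unitaries are the dilations -/
def BStmt (Q : Theory D) (A : (V → V) → D → D) : Prop :=
  Rep Q A → DGen Q → ∀ M (E : ModData M (om Q)), Wal Q M → ∀ t z, E.U t z = dV Q t z

end Vale.Agent.P352.BW.L

end
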