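import Vale.Agent.P352.BW.L.O2
import Vale.Agent.P352.BW.L.Spec
import Vale.Agent.P352.BW.T.Wd911
import Vale.Agent.P352.BW.T.H649.Nice
import Vale.Agent.P352.H746.Vjm
import Vale.Agent.P352.H746.PtGen
import Vale.Agent.P352.H755.R7b

/-!
# P352 LightConeNet [O]: analytic continuation of the dilations on one-field vectors (after T/O)
-/

set_option linter.all false

noncomputable section

open MeasureTheory SchwartzMap Complex Filter Topology
open scoped SchwartzMap ComplexConjugate ENNReal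

namespace Vale.Agent.P352.BW.L

open GF (Ix V Fn Fld Theory bas sim o)
open H246 H496 H746 H755 H15
open O649 (Nice)
open UniformSpace (Completion)

/-! ### the reflection -/

/-- `F (-x)` -/
def ngS (F : 𝓢(Mink, ℂ)) : 𝓢(Mink, ℂ) :=
  SchwartzMap.compCLMOfContinuousLinearEquiv ℂ (ContinuousLinearEquiv.neg ℝ) F

lemma ngS_apply (F : 𝓢(Mink, ℂ)) (x : Mink) : ngS F x = F (-x) := by
  simp [ngS]

lemma mft_ngS (F : 𝓢(Mink, ℂ)) (p : Mink) : mft (ngS F) p = mft F (-p) := by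
  unfold mft
  rw [← integral_neg_eq_self (fun x => exp (I * (mdot (-p) x : ℂ)) * F x)]
  congr 1
  ext x
  rw [ngS_apply]
  congr 4
  simp [mdot]

lemma fl_ngS (F : 𝓢(Mink, ℂ)) : fl (ngS F) = rf (fl F) := by
  funext x
  rw [fl_apply, ngS_apply]
  rfl

/-! ### values on the two lines -/

lemma cd_real (ε : ℝ) (t : ℝ) (p : Mink) :
    cd ε (t : ℂ) p = fun j => ((((Real.exp (2 * Real.pi * (ε * t)))⁻¹ • p) j : ℝ) : ℂ) := by
  funext j
  unfold cd
  rw [PiLp.smul_apply, smul_eq_mul, ← Real.exp_neg]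
  push_cast
  congr 2
  ring

lemma exp_half {ε : ℝ} (hε : Sg ε) (t : ℝ) : exp (-(2 * Real.pi * ε * ((t : ℂ) - I / 2))) =
    -(((Real.exp (2 * Real.pi * (ε * t)))⁻¹ : ℝ) : ℂ) := by
  have e1 : exp (Real.pi * ε * I) = -1 := by
    rcases hε with rfl | rfl
    · rw [Complex.ofReal_one, mul_one, exp_pi_mul_I]
    · have : (Real.pi : ℂ) * ((-1 : ℝ) : ℂ) * I = -(Real.pi * I) := by push_cast; ring
      rw [this, exp_neg, exp_pi_mul_I]
      norm_num
  have : -(2 * (Real.pi : ℂ) * ε * ((t : ℂ) - I / 2)) =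
      ((-(2 * Real.pi * (ε * t)) : ℝ) : ℂ) + Real.pi * ε * I := by
    push_cast; ring
  rw [this, exp_add, e1, ← ofReal_exp, Real.exp_neg]
  ring

lemma cd_half {ε : ℝ} (hε : Sg ε) (t : ℝ) (p : Mink) : cd ε ((t : ℂ) - I / 2) p =
    fun j => (((-((Real.exp (2 * Real.pi * (ε * t)))⁻¹ • p)) j : ℝ) : ℂ) := by
  funext j
  unfold cd
  rw [exp_half hε]
  have : (-((Real.exp (2 * Real.pi * (ε * t)))⁻¹ • p)) j =
      -((Real.exp (2 * Real.pi * (ε * t)))⁻¹ * p j) := rfl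
  rw [this]
  push_cast
  ring

lemma s4 {s : ℝ} (hs : 0 < s) (w : ℂ) :
    w = ((s ^ 4 : ℝ) : ℂ) * ((((s ^ 4)⁻¹ : ℝ) : ℂ) * w) := by
  rw [← mul_assoc, ← Complex.ofReal_mul, mul_inv_cancel₀ (by positivity), Complex.ofReal_one,
    one_mul]

variable {ε : ℝ} (hε : Sg ε)

/-! ### the momentum space functions of the boosted vectors -/

section mom

variable {μ : Measure Mink}

open Classical in
/-- the momentum space function `p ↦ F^(Λ_z⁻¹ p)` -/
def gd (ε : ℝ) (μ : Measure Mink) (F : 𝓢(Mink, ℂ)) (z : ℂ) : Lp ℂ 2 μ :=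
  if h : MemLp (fun p => cft F (cd ε z p)) 2 μ then h.toLp _ else 0

include hε

lemma memLp_cd (temp : μ.HasTemperateGrowth) (cone : ∀ᵐ p ∂μ, p ∈ fwdCone) (F : 𝓢(Mink, ℂ))
    (hF : P352.IsTest (CM ε) F) {z : ℂ} (hz : z ∈ T.St) :
    MemLp (fun p => cft F (cd ε z p)) 2 μ := by
  obtain ⟨N, hN⟩ := exists_wt_memLp temp
  obtain ⟨C, r, hC, hr, h⟩ := decay_cd hε F hF N
  refine MemLp.of_le_mul (c := C * Real.exp (r * |z.re|)) hN
    (continuous_cft_cd_right ε F hF.1 z).aestronglyMeasurable ?_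
  filter_upwards [cone] with p hp
  rw [Real.norm_of_nonneg (wt_nonneg N p)]
  exact h p hp z hz

lemma coe_gd (temp : μ.HasTemperateGrowth) (cone : ∀ᵐ p ∂μ, p ∈ fwdCone) (F : 𝓢(Mink, ℂ))
    (hF : P352.IsTest (CM ε) F) {z : ℂ} (hz : z ∈ T.St) :
    gd ε μ F z =ᵐ[μ] fun p => cft F (cd ε z p) := by
  have h := memLp_cd hε temp cone F hF hz
  rw [gd, dif_pos h]
  exact h.coeFn_toLp

lemma inner_gd (temp : μ.HasTemperateGrowth) (cone : ∀ᵐ p ∂μ, p ∈ fwdCone) (F : 𝓢(Mink, ℂ))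
    (hF : P352.IsTest (CM ε) F) {z : ℂ} (hz : z ∈ T.St) (y : Lp ℂ 2 μ) :
    inner ℂ y (gd ε μ F z) = ∫ p, cft F (cd ε z p) * conj (y p) ∂μ := by
  rw [L2.inner_def]
  apply integral_congr_ae
  filter_upwards [coe_gd hε temp cone F hF hz] with p hp
  rw [hp, RCLike.inner_apply]

lemma nice_gd (temp : μ.HasTemperateGrowth) (cone : ∀ᵐ p ∂μ, p ∈ fwdCone) (F : 𝓢(Mink, ℂ))
    (hF : P352.IsTest (CM ε) F) (y : Lp ℂ 2 μ) :
    Nice fun z => inner ℂ y (gd ε μ F z) := by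
  obtain ⟨h1, h2, C, r, hC, hr, h3⟩ := o2d hε temp cone F hF (Lp.memLp y).star
  have he : ∀ z ∈ T.St, inner ℂ y (gd ε μ F z) =
      ∫ p, cft F (cd ε z p) * (star (y : Mink → ℂ)) p ∂μ := fun z hz => by
    rw [inner_gd hε temp cone F hF hz]
    rfl
  refine ⟨h1.congr he, h2.congr fun z hz => he z ⟨hz.1.le, hz.2.le⟩, C, r, hC, hr,
    fun z hz hz' => ?_⟩
  rw [he z ⟨hz, hz'⟩]
  exact h3 z ⟨hz, hz'⟩

lemma gd_real (temp : μ.HasTemperateGrowth) (cone : ∀ᵐ p ∂μ, p ∈ fwdCone) (F : 𝓢(Mink, ℂ))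
    (hF : P352.IsTest (CM ε) F) (t : ℝ) :
    gd ε μ F t = (((Real.exp (2 * Real.pi * (ε * t)) ^ 4 : ℝ)) : ℂ) •
      toL temp (scaleS (Real.exp (2 * Real.pi * (ε * t))) (Real.exp_pos _).ne' F) := by
  apply Lp.ext
  have hz : (t : ℂ) ∈ T.St := by constructor <;> simp
  filter_upwards [coe_gd hε temp cone F hF hz,
    coeFn_toL temp (scaleS (Real.exp (2 * Real.pi * (ε * t))) (Real.exp_pos _).ne' F),
    Lp.coeFn_smul (((Real.exp (2 * Real.pi * (ε * t)) ^ 4 : ℝ)) : ℂ)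
      (toL temp (scaleS (Real.exp (2 * Real.pi * (ε * t))) (Real.exp_pos _).ne' F))] with p h1 h2 h3
  rw [h1, h3, Pi.smul_apply, h2, cd_real, cft_ofReal, mft_scaleS _ (Real.exp_pos _), smul_eq_mul]
  exact s4 (Real.exp_pos _) _

lemma gd_half (temp : μ.HasTemperateGrowth) (cone : ∀ᵐ p ∂μ, p ∈ fwdCone) (F : 𝓢(Mink, ℂ))
    (hF : P352.IsTest (CM ε) F) (t : ℝ) :
    gd ε μ F ((t : ℂ) - I / 2) = (((Real.exp (2 * Real.pi * (ε * t)) ^ 4 : ℝ)) : ℂ) •
      toL temp (scaleS (Real.exp (2 * Real.pi * (ε * t))) (Real.exp_pos _).ne' (ngS F)) := by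
  apply Lp.ext
  have hz : ((t : ℂ) - I / 2) ∈ T.St := by constructor <;> simp
  filter_upwards [coe_gd hε temp cone F hF hz,
    coeFn_toL temp (scaleS (Real.exp (2 * Real.pi * (ε * t))) (Real.exp_pos _).ne' (ngS F)),
    Lp.coeFn_smul (((Real.exp (2 * Real.pi * (ε * t)) ^ 4 : ℝ)) : ℂ)
      (toL temp (scaleS (Real.exp (2 * Real.pi * (ε * t))) (Real.exp_pos _).ne' (ngS F)))]
    with p h1 h2 h3
  rw [h1, h3, Pi.smul_apply, h2, cd_half hε, cft_ofReal, mft_scaleS _ (Real.exp_pos _), mft_ngS,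
    smul_eq_mul]
  exact s4 (Real.exp_pos _) _

/-- norm continuity on the closed strip -/
lemma cont_gd (temp : μ.HasTemperateGrowth) (cone : ∀ᵐ p ∂μ, p ∈ fwdCone) (F : 𝓢(Mink, ℂ))
    (hF : P352.IsTest (CM ε) F) : ContinuousOn (gd ε μ F) T.St := by
  intro z₀ hz₀
  obtain ⟨N, hN⟩ := exists_wt_memLp temp
  obtain ⟨C, r, hC, hr, h⟩ := decay_cd hε F hF N
  have hsq : Integrable (fun p => (wt N p) ^ 2) μ := by
    have := hN.integrable_sq
    exact this
  have hnorm : ∀ z ∈ T.St, ‖gd ε μ F z - gd ε μ F z₀‖ ^ 2 =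
      ∫ p, ‖cft F (cd ε z p) - cft F (cd ε z₀ p)‖ ^ 2 ∂μ := by
    intro z hz
    have e1 : inner ℂ (gd ε μ F z - gd ε μ F z₀) (gd ε μ F z - gd ε μ F z₀) =
        ∫ p, ((‖cft F (cd ε z p) - cft F (cd ε z₀ p)‖ ^ 2 : ℝ) : ℂ) ∂μ := by
      rw [L2.inner_def]
      apply integral_congr_ae
      filter_upwards [coe_gd hε temp cone F hF hz, coe_gd hε temp cone F hF hz₀,
        Lp.coeFn_sub (gd ε μ F z) (gd ε μ F z₀)] with p h1 h2 h3
      rw [h3, Pi.sub_apply, h1, h2, inner_self_eq_norm_sq_to_K]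
      norm_cast
    rw [inner_self_eq_norm_sq_to_K, integral_complex_ofReal] at e1
    apply Complex.ofReal_injective
    rw [← e1, ofReal_pow]
    rfl
  have hlim : Tendsto (fun z => ∫ p, ‖cft F (cd ε z p) - cft F (cd ε z₀ p)‖ ^ 2 ∂μ)
      (𝓝[T.St] z₀) (𝓝 (∫ p, ‖cft F (cd ε z₀ p) - cft F (cd ε z₀ p)‖ ^ 2 ∂μ)) := by
    refine tendsto_integral_filter_of_dominated_convergence
      (fun p => (2 * (C * Real.exp (r * (|z₀.re| + 1)))) ^ 2 * (wt N p) ^ 2) ?_ ?_
      (hsq.const_mul _) ?_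
    · refine Eventually.of_forall fun z => ?_
      exact (((continuous_cft_cd_right ε F hF.1 z).sub
        (continuous_cft_cd_right ε F hF.1 z₀)).norm.pow 2).aestronglyMeasurable
    · have hmem : {z : ℂ | |z.re| < |z₀.re| + 1} ∈ 𝓝 z₀ := by
        apply IsOpen.mem_nhds
        · exact isOpen_lt (by fun_prop) continuous_const
        · show |z₀.re| < |z₀.re| + 1
          linarith
      filter_upwards [mem_nhdsWithin_of_mem_nhds hmem, self_mem_nhdsWithin] with z hz1 hz2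
      filter_upwards [cone] with p hp
      have hb1 : ∀ w ∈ T.St, |w.re| ≤ |z₀.re| + 1 →
          ‖cft F (cd ε w p)‖ ≤ C * Real.exp (r * (|z₀.re| + 1)) * wt N p := by
        intro w hw hw'
        refine (h p hp w hw).trans ?_
        have := wt_nonneg N p
        gcongr
      have e1 := hb1 z hz2 (le_of_lt hz1)
      have e2 := hb1 z₀ hz₀ (by linarith)
      rw [Real.norm_of_nonneg (by positivity), ← mul_pow]
      apply pow_le_pow_left₀ (norm_nonneg _)
      calc _ ≤ ‖cft F (cd ε z p)‖ + ‖cft F (cd ε z₀ p)‖ := norm_sub_le _ _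
        _ ≤ _ := by linarith
    · refine Eventually.of_forall fun p => ?_
      have hc : Continuous fun z => ‖cft F (cd ε z p) - cft F (cd ε z₀ p)‖ ^ 2 :=
        (((differentiable_cft_cd ε F hF.1 p).continuous.sub continuous_const).norm.pow 2)
      exact hc.continuousWithinAt
  have h0 : Tendsto (fun z => ‖gd ε μ F z - gd ε μ F z₀‖ ^ 2) (𝓝[T.St] z₀) (𝓝 0) := by
    have e : (∫ p, ‖cft F (cd ε z₀ p) - cft F (cd ε z₀ p)‖ ^ 2 ∂μ) = 0 := by simp
    rw [e] at hlim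
    refine hlim.congr' ?_
    filter_upwards [self_mem_nhdsWithin] with z hz
    rw [hnorm z hz]
  have h1 : Tendsto (fun z => ‖gd ε μ F z - gd ε μ F z₀‖) (𝓝[T.St] z₀) (𝓝 0) := by
    have := h0.sqrt
    simpa using this
  exact tendsto_iff_norm_sub_tendsto_zero.2 h1

end mom

/-! ### one-field vectors -/

section vec

variable {D : Type*} [NormedAddCommGroup D] [InnerProductSpace ℂ D] {Q : Theory D}
  {A : (V → V) → D → D}

lemma one_one : (fun m => sim 1 GF.one 0 (GF.one m)) = GF.one := by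
  funext m
  rw [sim_one', add_zero]

lemma sim_zero_one (s : ℝ) : sim s GF.one 0 0 = 0 := by
  funext n
  simp [sim]

lemma fl_scale {s : ℝ} (hs : 0 < s) (F : 𝓢(Mink, ℂ)) :
    (fun x => fl F (sim s GF.one 0 x)) = fl (scaleS s hs.ne' F) := by
  funext x
  rw [fl_apply, fl_apply, scaleS_apply]
  congr 1
  ext n
  simp [sim, GF.one, bas]

lemma U_U (R : Rep Q A) {s t : ℝ} (hs : 0 < s) (ht : 0 < t) (v : D) :
    Q.U s GF.one 0 (Q.U t GF.one 0 v) = Q.U (s * t) GF.one 0 v := by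
  rw [R.mul s GF.one 0 t GF.one 0 v hs ht H496.isLor_one H496.isLor_one, one_one, sim_zero_one]

lemma dD_fl (R : Rep Q A) {d : ℝ} {B : Fld D} (hB : Fz Q d B) (F : 𝓢(Mink, ℂ)) (u : ℝ) :
    dD Q u (B (fl F) Q.vac) = ((Real.exp (2 * Real.pi * u) ^ (4 - d) : ℝ) : ℂ) •
      B (fl (scaleS (Real.exp (2 * Real.pi * u)) (Real.exp_pos _).ne' F)) Q.vac := by
  set s := Real.exp (2 * Real.pi * u) with hs
  have hs0 : 0 < s := Real.exp_pos _
  have h := hB.cov s (fl F) Q.vac hs0 (isTest_fl F)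
  rw [Q.U_vac s GF.one 0 hs0 H496.isLor_one, fl_scale hs0] at h
  rw [dD, h, U_smul (Real.exp_pos _) H496.isLor_one, U_U R (Real.exp_pos _) hs0]
  have e : Real.exp (-(2 * Real.pi * u)) * s = 1 := by
    rw [hs, ← Real.exp_add, neg_add_cancel, Real.exp_zero]
  rw [e, Uone]

lemma isTest_cm {f : Fn} {F : 𝓢(Mink, ℂ)} {W : Set V} (hf : In W (fl F))
    (hW : ∀ x, x ∈ W → WithLp.toLp 2 x ∈ CM ε) : P352.IsTest (CM ε) F := by
  obtain ⟨-, h1, h2⟩ := hf
  rw [tsupport_fl] at h2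
  refine ⟨?_, fun x hx => ?_⟩
  · have e : (F : Mink → ℂ) = fl F ∘ (EuclideanSpace.equiv (Fin 4) ℝ).toHomeomorph := by
      funext x
      rfl
    rw [e]
    exact h1.comp_homeomorph _
  · exact hW x.ofLp (h2 (show WithLp.toLp 2 x.ofLp ∈ tsupport F from hx))

lemma nice_expd (ε d : ℝ) : Nice fun z => exp (-(2 * Real.pi * ε * d * z)) := by
  have := Nice.exp (-(2 * Real.pi * ε * d))
  convert this using 2
  push_cast
  ring

include hε in
/-- Block O for both cones. -/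
theorem o_eps (R : Rep Q A) {d : ℝ} {B : Fld D} (hB : Fz Q d B) (F : 𝓢(Mink, ℂ))
    (hF : P352.IsTest (CM ε) F) :
    ∃ G : ℂ → Completion D, DifferentiableOn ℂ G T.SmI ∧ ContinuousOn G T.Sm ∧
      (∃ C, ∀ z ∈ T.Sm, ‖G z‖ ≤ C) ∧ ∀ t : ℝ, G t = (dD Q (ε * t) (B (fl F) Q.vac) : D) ∧
        G (t - Complex.I / 2) =
          (dD Q (ε * t) (exp (I * Real.pi * ε * d) • B (rf (fl F)) Q.vac) : D) := by
  obtain ⟨μ, K⟩ := exists_cvd (Q := Q) (kf hB.fld) (kf_cov hB.fld)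
  set G : ℂ → Completion D := fun z => exp (-(2 * Real.pi * ε * d * z)) • K.J (gd ε μ F z) with hG
  have hpow : ∀ t : ℝ, exp (-(2 * Real.pi * ε * d * t)) *
      (((Real.exp (2 * Real.pi * (ε * t)) ^ 4 : ℝ)) : ℂ) =
      ((Real.exp (2 * Real.pi * (ε * t)) ^ (4 - d) : ℝ) : ℂ) := by
    intro t
    rw [Real.rpow_sub (Real.exp_pos _), ← Real.exp_mul (2 * Real.pi * (ε * t)) d]
    have h4 : Real.exp (2 * Real.pi * (ε * t)) ^ (4 : ℝ) = Real.exp (2 * Real.pi * (ε * t)) ^ 4 := by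
      exact_mod_cast Real.rpow_natCast (Real.exp (2 * Real.pi * (ε * t))) 4
    rw [h4, div_eq_mul_inv, ← Real.exp_neg, mul_comm]
    push_cast
    congr 2
    ring
  have hsm : ∀ (u : ℝ) (c : ℂ) (v : D), dD Q u (c • v) = c • dD Q u v := fun u c v =>
    U_smul (Real.exp_pos _) H496.isLor_one 0 c v
  have hval : ∀ t : ℝ, G t = (dD Q (ε * t) (B (fl F) Q.vac) : D) := by
    intro t
    rw [dD_fl R hB, hG]
    simp only
    rw [gd_real hε K.temp K.cone F hF, map_smul, K.J_toL, smul_smul, hpow, kf_apply,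
      Completion.coe_smul]
  have hval' : ∀ t : ℝ, G (t - Complex.I / 2) =
      (dD Q (ε * t) (exp (I * Real.pi * ε * d) • B (rf (fl F)) Q.vac) : D) := by
    intro t
    rw [hsm, ← fl_ngS, dD_fl R hB, hG]
    simp only
    have e : exp (-(2 * Real.pi * ε * d * ((t : ℂ) - I / 2))) =
        exp (I * Real.pi * ε * d) * exp (-(2 * Real.pi * ε * d * t)) := by
      rw [← exp_add]
      congr 1
      ring
    rw [gd_half hε K.temp K.cone F hF, map_smul, K.J_toL, smul_smul, e, mul_assoc, hpow, kf_apply,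
      ← smul_smul, Completion.coe_smul, Completion.coe_smul]
  have hne : ContinuousOn (fun z : ℂ => exp (-(2 * Real.pi * ε * d * z))) T.Sm := by
    fun_prop
  have hc : ContinuousOn G T.Sm := by
    rw [hG]
    exact hne.smul (K.J.continuous.comp_continuousOn (cont_gd hε K.temp K.cone F hF))
  have hn : ∀ y : Completion D, Nice fun z => inner ℂ y (G z) := by
    intro y
    have e : (fun z => inner ℂ y (G z)) = fun z => exp (-(2 * Real.pi * ε * d * z)) *
        inner ℂ (ContinuousLinearMap.adjoint K.J y) (gd ε μ F z) := by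
      funext z
      rw [hG]
      simp only [inner_smul_right, ContinuousLinearMap.adjoint_inner_left]
    rw [e]
    exact (nice_expd ε d).mul (nice_gd hε K.temp K.cone F hF _)
  set C : ℝ := max ‖B (fl F) Q.vac‖ ‖exp (I * Real.pi * ε * d) • B (rf (fl F)) Q.vac‖ with hC
  have hU : ∀ (u : ℝ) (v : D), ‖((dD Q u v : D) : Completion D)‖ = ‖v‖ := by
    intro u v
    rw [Completion.norm_coe]
    have h := Q.U_inner (Real.exp (-(2 * Real.pi * u))) GF.one 0 v v (Real.exp_pos _) H496.isLor_one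
    rw [inner_self_eq_norm_sq_to_K, inner_self_eq_norm_sq_to_K] at h
    have h2 : ‖dD Q u v‖ ^ 2 = ‖v‖ ^ 2 := by exact_mod_cast h
    exact (pow_left_inj₀ (norm_nonneg _) (norm_nonneg _) (by norm_num)).1 h2
  have hb' : ∀ z ∈ T.Sm, ‖G z‖ ≤ C := by
    intro z hz
    have h1 : ‖inner ℂ (G z) (G z)‖ ≤ ‖G z‖ * C := by
      refine (hn (G z)).pl ?_ ?_ hz.1 hz.2
      · intro t
        refine (norm_inner_le_norm _ _).trans ?_
        rw [hval, hU]
        gcongr
        exact le_max_left _ _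
      · intro t
        refine (norm_inner_le_norm _ _).trans ?_
        rw [hval', hU]
        gcongr
        exact le_max_right _ _
    have h2 : ‖inner ℂ (G z) (G z)‖ = ‖G z‖ * ‖G z‖ := by
      rw [inner_self_eq_norm_sq_to_K, norm_pow, norm_algebraMap', norm_norm, pow_two]
    rw [h2] at h1
    by_cases h3 : ‖G z‖ = 0
    · rw [h3]
      exact (norm_nonneg _).trans (le_max_left _ _)
    · exact le_of_mul_le_mul_left h1 (lt_of_le_of_ne (norm_nonneg _) (Ne.symm h3))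
  have hopen : IsOpen T.SmI := (isOpen_lt continuous_const Complex.continuous_im).inter
    (isOpen_lt Complex.continuous_im continuous_const)
  refine ⟨G, ?_, hc, ⟨C, hb'⟩, fun t => ⟨hval t, hval' t⟩⟩
  exact T.nrm_diff hopen (hc.mono fun z hz => ⟨hz.1.le, hz.2.le⟩) fun y => (hn y).diff

/-- **Block O.** -/
theorem o : OStmt Q A := by
  intro R d B f hB
  refine ⟨fun hf => ?_, fun hf => ?_⟩
  · obtain ⟨F, rfl⟩ := exists_fl hf.1
    have h := o_eps (ε := 1) (Or.inl rfl) R hB F (isTest_cm (f := fl F) hf fun x hx => by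
      obtain ⟨h1, h2⟩ := hx
      refine ⟨?_, ?_⟩
      · rw [mdot_eq]; exact h1
      · rw [one_mul]; exact h2)
    simpa only [one_mul, Complex.ofReal_one, mul_one] using h
  · obtain ⟨F, rfl⟩ := exists_fl hf.1
    have h := o_eps (ε := -1) (Or.inr rfl) R hB F (isTest_cm (f := fl F) hf fun x hx => by
      obtain ⟨h1, h2⟩ := hx
      refine ⟨?_, ?_⟩
      · rw [mdot_eq]; exact h1
      · rw [neg_one_mul]; exact neg_pos.2 h2)
    simpa only [Complex.ofReal_neg, Complex.ofReal_one, mul_neg, mul_one,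
      neg_mul, one_mul] using h

end vec

end Vale.Agent.P352.BW.L

end
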