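import Vale.Agent.P352.BW.T.T1
import Vale.Agent.P352.BW.L.Spec

/-!
# P352, light cone: algebra of fields with real dimensions (after helper728, H728/Lc/T1.lean)
-/

set_option linter.all false

noncomputable section

open MeasureTheory Filter Topology
open scoped ComplexConjugate InnerProductSpace BoundedContinuousFunction SchwartzMap

namespace Vale.Agent.P352.BW.L

open UniformSpace (Completion)
open GF H246 H496 H755 H15

variable {D : Type*} [NormedAddCommGroup D] [InnerProductSpace ℂ D] {Q : Theory D}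
  {A : (V → V) → D → D}

namespace T1x

lemma sim_s' (s : ℝ) (x : V) : sim s GF.one 0 x = s • x := by
  funext n
  simp [sim, GF.one, bas]

lemma rf_cp (f : Fn) : rf f = T.cp (fun m => -GF.one m) f := by
  funext x
  have : sim 1 (fun m => -GF.one m) 0 x = -x := by
    funext n
    simp [sim, GF.one, bas]
  simp [rf, T.cp, this]

lemma simneg (x : V) : sim 1 (fun m => -GF.one m) 0 x = -x := by
  funext n
  simp [sim, GF.one, bas]

lemma in_rf {O O' : Set V} (hO : ∀ x, -x ∈ O → x ∈ O') {f : Fn} (hf : In O f) : In O' (rf f) := by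
  have h : ∀ x, sim 1 (fun m => -GF.one m) 0 (sim 1 (fun m => -GF.one m) 0 x) = x := by
    intro x
    rw [simneg, simneg, neg_neg]
  rw [rf_cp]
  exact T.in_cp h h (fun x hx => hO x (by rwa [simneg] at hx)) hf

/-- the dilations are invertible -/
lemma U_surj {s : ℝ} (hs : 0 < s) (h : Rep Q A) (w : D) :
    Q.U s GF.one 0 (Q.U s⁻¹ GF.one 0 w) = w := by
  rw [h.mul s GF.one 0 s⁻¹ GF.one 0 w hs (inv_pos.2 hs) isLor_one isLor_one]
  have e1 : (fun m => sim 1 GF.one 0 (GF.one m)) = GF.one := by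
    funext m n
    simp [sim, GF.one, bas]
  have e2 : sim s GF.one 0 0 = (0 : V) := by
    rw [sim_s', smul_zero]
  rw [e1, e2, mul_inv_cancel₀ hs.ne']
  exact Uone w

lemma test_scale {s : ℝ} (hs : s ≠ 0) {f : Fn} (hf : GF.IsTest f) :
    GF.IsTest (fun x => f (sim s GF.one 0 x)) := by
  obtain ⟨F, rfl⟩ := exists_fl hf
  have : (fun x => fl F (sim s GF.one 0 x)) = fl (scaleS s hs F) := by
    funext x
    rw [fl_apply, fl_apply, scaleS_apply, sim_s']
    rfl
  rw [this]
  exact isTest_fl _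

lemma adj_of (h : Rep Q A) {d : ℝ} {B : Fld D} (hB : Fz Q d B) :
    ∃ B' : Fld D, Fz Q d B' ∧ ∀ f v w, GF.IsTest f →
      inner ℂ (B f v) w = inner ℂ v (B' (GF.bar f) w) := by
  obtain ⟨B', hB', hadj⟩ := Q.adj B hB.fld
  refine ⟨B', ⟨hB', fun s f v hs hf => ?_⟩, hadj⟩
  refine ext_inner_left ℂ fun w => ?_
  have hw := U_surj hs h w
  set w' := Q.U s⁻¹ GF.one 0 w with hw'
  have hbf := T.test_bar hf
  have h1 := hadj (GF.bar f) w (Q.U s GF.one 0 v) hbf
  rw [T.bar_bar'] at h1
  rw [← h1, ← hw, hB.cov s (GF.bar f) w' hs hbf, inner_smul_left, inner_smul_right,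
    Q.U_inner s GF.one 0 _ _ hs isLor_one, Q.U_inner s GF.one 0 _ _ hs isLor_one]
  have h3 := hadj (fun x => GF.bar f (sim s GF.one 0 x)) w' v (test_scale hs.ne' hbf)
  have h4 : GF.bar (fun x => GF.bar f (sim s GF.one 0 x)) = fun x => f (sim s GF.one 0 x) := by
    funext x
    simp [GF.bar]
  rw [h4] at h3
  rw [h3, Complex.conj_ofReal]

end T1x

open T1x in
/-- block T1 -/
theorem t1 (Q : Theory D) (A : (V → V) → D → D) : T1Stmt Q A := by
  intro h
  refine ⟨fun d B => adj_of h, fun f => ?_, fun f => rfl, fun f hf => ?_, fun f hf => ?_,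
    fun O f hf => ?_⟩
  · funext x
    simp [rf]
  · refine in_rf (fun x hx => ?_) hf
    obtain ⟨h1, h2⟩ : 0 < GF.mdot (-x) (-x) ∧ 0 < (-x) o := hx
    refine ⟨?_, ?_⟩
    · have : GF.mdot (-x) (-x) = GF.mdot x x := by simp [GF.mdot]
      rwa [this] at h1
    · simpa using h2
  · refine in_rf (fun x hx => ?_) hf
    obtain ⟨h1, h2⟩ : 0 < GF.mdot (-x) (-x) ∧ (-x) o < 0 := hx
    refine ⟨?_, ?_⟩
    · have : GF.mdot (-x) (-x) = GF.mdot x x := by simp [GF.mdot]
      rwa [this] at h1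
    · simpa using h2
  · refine ⟨T.test_bar hf.1, ?_, ?_⟩
    · unfold HasCompactSupport
      rw [H246.tsupport_bar]
      exact hf.2.1
    · rw [H246.tsupport_bar]
      exact hf.2.2

/-- components of tensor multiplets of real dimension -/
lemma fz_of_ten {k : ℕ} {d : ℝ} {Φ : (Fin k → Ix) → Fld D} (h : H846.IsTen Q k d Φ)
    (μ : Fin k → Ix) : Fz Q d (Φ μ) := by
  refine ⟨Q.bose_fld _ (h.1 μ), fun s f v hs hf => ?_⟩
  rw [h.2 μ s GF.one 0 f v hs isLor_one hf, Finset.sum_eq_single μ]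
  · have : ∏ i, GF.one (μ i) (μ i) = 1 := Finset.prod_eq_one fun i _ => by simp [GF.one, bas]
    rw [this, mul_one]
  · intro ν _ hν
    obtain ⟨i, hi⟩ : ∃ i, ν i ≠ μ i := by
      by_contra hc
      push Not at hc
      exact hν (funext hc)
    have : ∏ i, GF.one (ν i) (μ i) = 0 :=
      Finset.prod_eq_zero (Finset.mem_univ i) (by simp [GF.one, bas, hi.symm, hi])
    rw [this]
    simp
  · intro hc
    exact absurd (Finset.mem_univ _) hc

/-- block G -/
theorem g (Q : Theory D) : GStmt Q := by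
  intro hT S hv h
  exact hT S hv fun k d Φ μ f v hΦ hf hvS => h d _ f v (fz_of_ten hΦ μ) hf hvS

end Vale.Agent.P352.BW.L

end
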